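import Vale.Agent.P141.PL.H571.Max
import Vale.Agent.P141.PL.H620.Disc

/-!
# P141, density step: the root estimate
-/

namespace Vale.Agent.P141.PL.H571

open Finset Vale.Agent.P141.PL.H620

/-- **ROOT ESTIMATE**: nodes below the root `(K, V)`, closed under ancestors, functions of height
`≤ H` with window `L²` averages `≤ 1` on all the nodes -/
def RootTh (n : ℕ) (H P : ℝ) : Prop :=
  ∀ f : Fin 4 → ℤ → ℝ, (∀ j, (Function.support (f j)).Finite) → ∀ o : ℤ, (o = 1 ∨ o = -1) →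
    ∀ K ≤ n, ∀ V : ℤ, ∀ 𝒩 : Finset (ℕ × ℤ),
    (∀ N ∈ 𝒩, 1 ≤ N.1 ∧ N.1 ≤ K ∧ N.2 / 2 ^ (K - N.1) = V) →
    (∀ N ∈ 𝒩, ∀ k', N.1 ≤ k' → k' ≤ K → (k', N.2 / 2 ^ (k' - N.1)) ∈ 𝒩) →
    (∀ j x, |f j x| ≤ H) →
    (∀ N ∈ 𝒩, ∀ j, ∑ y ∈ W N.1 N.2, |f j y| ^ 2 ≤ 2 ^ (N.1 + 5)) →
    ∑ N ∈ 𝒩, ((4 : ℝ) ^ N.1)⁻¹ * |loc1 N.1 (nn o N.2 0 0) f| ≤ P * 2 ^ K

end Vale.Agent.P141.PL.H571
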