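import Mathlib

/-!
# P141, density step: the dyadic maximal function on `ℤ` (scales `≤ n`), strong type `(r, r)`
-/

namespace Vale.Agent.P141.PL.H571

open Finset

/-- average of `g` over the dyadic interval `[2^k v, 2^k (v+1))` -/
noncomputable def dav (g : ℤ → ℝ) (k : ℕ) (v : ℤ) : ℝ :=
  (∑ y ∈ Ico (2 ^ k * v) (2 ^ k * (v + 1)), g y) / 2 ^ k

/-- maximum of the averages of the scales `n - j, ..., n` at `x` -/
noncomputable def S (g : ℤ → ℝ) (n : ℕ) : ℕ → ℤ → ℝ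
  | 0, x => dav g n (x / 2 ^ n)
  | j + 1, x => max (S g n j x) (dav g (n - (j + 1)) (x / 2 ^ (n - (j + 1))))

theorem dav_nonneg {g : ℤ → ℝ} (hg : ∀ x, 0 ≤ g x) (k : ℕ) (v : ℤ) : 0 ≤ dav g k v :=
  div_nonneg (sum_nonneg fun _ _ => hg _) (by positivity)

theorem S_nonneg {g : ℤ → ℝ} (hg : ∀ x, 0 ≤ g x) (n j : ℕ) (x : ℤ) : 0 ≤ S g n j x := by
  induction j with
  | zero => exact dav_nonneg hg _ _
  | succ j ih => exact le_max_of_le_left ih

theorem S_mono (g : ℤ → ℝ) (n : ℕ) {i j : ℕ} (h : i ≤ j) (x : ℤ) : S g n i x ≤ S g n j x := by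
  induction h with
  | refl => exact le_rfl
  | step _ ih => exact ih.trans (le_max_left _ _)

theorem dav_le_S (g : ℤ → ℝ) (n j : ℕ) (x : ℤ) : dav g (n - j) (x / 2 ^ (n - j)) ≤ S g n j x := by
  cases j with
  | zero => exact le_rfl
  | succ j => exact le_max_right _ _

/-- every dyadic average of scale `≤ n` is below the maximal function -/
theorem dav_le (g : ℤ → ℝ) {n k : ℕ} (hk : k ≤ n) (x : ℤ) : dav g k (x / 2 ^ k) ≤ S g n n x := by
  have h := dav_le_S g n (n - k) x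
  rw [Nat.sub_sub_self hk] at h
  exact h.trans (S_mono g n (Nat.sub_le _ _) x)

theorem ediv_pow_succ (x : ℤ) (k : ℕ) : x / 2 ^ (k + 1) = x / 2 ^ k / 2 := by
  rw [pow_succ, Int.ediv_ediv_of_nonneg (by positivity)]

theorem ediv_pow_add (x : ℤ) (k l : ℕ) : x / 2 ^ (k + l) = x / 2 ^ k / 2 ^ l := by
  rw [pow_add, Int.ediv_ediv_of_nonneg (by positivity)]

theorem S_congr (g : ℤ → ℝ) (n j : ℕ) {x y : ℤ} (h : x / 2 ^ (n - j) = y / 2 ^ (n - j)) :
    S g n j x = S g n j y := by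
  induction j with
  | zero => simp only [S, Nat.sub_zero] at h ⊢; rw [h]
  | succ j ih =>
    have h' : x / 2 ^ (n - j) = y / 2 ^ (n - j) := by
      by_cases hj : j + 1 ≤ n
      · have e : n - j = n - (j + 1) + 1 := by omega
        rw [e, ediv_pow_succ, ediv_pow_succ, h]
      · have e : n - j = n - (j + 1) := by omega
        rw [e, h]
    simp only [S]
    rw [ih h', h]

/-- the fibre of `x ↦ x / 2^k` -/
theorem mem_cell {x v : ℤ} {k : ℕ} : x ∈ Ico (2 ^ k * v) (2 ^ k * (v + 1)) ↔ x / 2 ^ k = v := by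
  have hp : (0 : ℤ) < 2 ^ k := by positivity
  rw [mem_Ico]
  constructor
  · rintro ⟨h1, h2⟩
    apply le_antisymm
    · apply Int.lt_add_one_iff.1
      apply Int.ediv_lt_of_lt_mul hp
      rw [mul_comm]; exact h2
    · apply (Int.le_ediv_iff_mul_le hp).2
      rw [mul_comm]; exact h1
  · rintro rfl
    constructor
    · exact Int.mul_ediv_self_le hp.ne'
    · have := Int.lt_mul_ediv_self_add (x := x) hp
      rw [mul_add, mul_one]; exact this

theorem card_cell (k : ℕ) (v : ℤ) : (Ico (2 ^ k * v) (2 ^ k * (v + 1))).card = 2 ^ k := by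
  rw [Int.card_Ico]
  have : (2 : ℤ) ^ k * (v + 1) - 2 ^ k * v = ((2 ^ k : ℕ) : ℤ) := by push_cast; ring
  rw [this, Int.toNat_natCast]

/-- the conditional expectation identity -/
theorem sum_dav (g : ℤ → ℝ) (h : ℤ → ℝ) {n k : ℕ} (hk : k ≤ n) (A B : ℤ)
    (hh : ∀ x y : ℤ, x / 2 ^ k = y / 2 ^ k → h x = h y) :
    ∑ x ∈ Ico (2 ^ n * A) (2 ^ n * B), dav g k (x / 2 ^ k) * h x =
      ∑ x ∈ Ico (2 ^ n * A) (2 ^ n * B), g x * h x := by
  have hpow : (2 : ℤ) ^ n = 2 ^ k * 2 ^ (n - k) := by rw [← pow_add, Nat.add_sub_cancel' hk]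
  have hp : (0 : ℤ) < 2 ^ k := by positivity
  have hmaps : ∀ x ∈ Ico ((2 : ℤ) ^ n * A) (2 ^ n * B),
      x / 2 ^ k ∈ Ico ((2 : ℤ) ^ (n - k) * A) (2 ^ (n - k) * B) := by
    intro x hx
    rw [mem_Ico] at hx ⊢
    rw [hpow] at hx
    constructor
    · apply (Int.le_ediv_iff_mul_le hp).2
      linarith [hx.1]
    · apply Int.ediv_lt_of_lt_mul hp
      linarith [hx.2]
  rw [← sum_fiberwise_of_maps_to hmaps, ← sum_fiberwise_of_maps_to hmaps]
  refine sum_congr rfl fun v hv => ?_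
  have hfib : (Ico ((2 : ℤ) ^ n * A) (2 ^ n * B)).filter (fun x => x / 2 ^ k = v) =
      Ico (2 ^ k * v) (2 ^ k * (v + 1)) := by
    ext x
    rw [mem_filter, mem_cell]
    refine ⟨fun h => h.2, fun h => ⟨?_, h⟩⟩
    rw [mem_Ico] at hv ⊢
    have hx := mem_Ico.1 (mem_cell.2 h)
    rw [hpow]
    constructor
    · nlinarith [hx.1, hv.1]
    · have : v + 1 ≤ 2 ^ (n - k) * B := hv.2
      nlinarith [hx.2]
  rw [hfib]
  have h1 : ∀ x ∈ Ico ((2 : ℤ) ^ k * v) (2 ^ k * (v + 1)), h x = h (2 ^ k * v) := by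
    intro x hx
    apply hh
    rw [mem_cell.1 hx, Int.mul_ediv_cancel_left _ hp.ne']
  have hL : ∑ x ∈ Ico ((2 : ℤ) ^ k * v) (2 ^ k * (v + 1)), dav g k (x / 2 ^ k) * h x =
      ∑ _x ∈ Ico ((2 : ℤ) ^ k * v) (2 ^ k * (v + 1)), dav g k v * h (2 ^ k * v) :=
    sum_congr rfl fun x hx => by rw [h1 x hx, mem_cell.1 hx]
  have hR : ∑ x ∈ Ico ((2 : ℤ) ^ k * v) (2 ^ k * (v + 1)), g x * h x =
      ∑ x ∈ Ico ((2 : ℤ) ^ k * v) (2 ^ k * (v + 1)), g x * h (2 ^ k * v) :=
    sum_congr rfl fun x hx => by rw [h1 x hx]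
  rw [hL, hR, sum_const, card_cell, ← sum_mul, dav, nsmul_eq_mul]
  push_cast
  field_simp

/-- the elementary inequality behind Doob's inequality -/
theorem elem_ineq {r s t : ℝ} (hr : 1 < r) (ht : 0 ≤ t) (hs : 0 ≤ s) :
    r * (s * t ^ (r - 1)) ≤ s ^ r + (r - 1) * t ^ r := by
  have hr0 : 0 < r := by linarith
  have h := Real.geom_mean_le_arith_mean2_weighted (w₁ := 1 / r) (w₂ := (r - 1) / r)
    (p₁ := s ^ r) (p₂ := t ^ r) (by positivity) (div_nonneg (by linarith) hr0.le)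
    (by positivity) (by positivity) (by field_simp; ring)
  have e1 : (s ^ r) ^ (1 / r) = s := by
    rw [← Real.rpow_mul hs, mul_one_div_cancel hr0.ne', Real.rpow_one]
  have e2 : (t ^ r) ^ ((r - 1) / r) = t ^ (r - 1) := by
    rw [← Real.rpow_mul ht]
    congr 1
    field_simp
  rw [e1, e2] at h
  calc r * (s * t ^ (r - 1)) ≤ r * (1 / r * s ^ r + (r - 1) / r * t ^ r) :=
        mul_le_mul_of_nonneg_left h hr0.le
    _ = s ^ r + (r - 1) * t ^ r := by field_simp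

theorem step_ineq {r s t : ℝ} (hr : 1 < r) (ht : 0 ≤ t) (hs : 0 ≤ s) :
    (r - 1) * (s ^ r - t ^ r) ≤ r * (s * (s ^ (r - 1) - t ^ (r - 1))) := by
  have h := elem_ineq hr ht hs
  have e : s * s ^ (r - 1) = s ^ r := by
    rcases hs.eq_or_lt with h0 | h0
    · rw [← h0, zero_mul, Real.zero_rpow (by linarith)]
    · rw [← Real.rpow_one_add' hs (by linarith)]
      congr 1
      ring
  have : r * (s * (s ^ (r - 1) - t ^ (r - 1))) = r * s ^ r - r * (s * t ^ (r - 1)) := by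
    rw [mul_sub, e]; ring
  rw [this]
  nlinarith

/-- telescoped inequality, at each level -/
theorem doob_tele {g : ℤ → ℝ} (hg : ∀ x, 0 ≤ g x) {r : ℝ} (hr : 1 < r) (n : ℕ) (A B : ℤ) (j : ℕ)
    (hj : j ≤ n) :
    (r - 1) * ∑ x ∈ Ico (2 ^ n * A) (2 ^ n * B), S g n j x ^ r ≤
      r * ∑ x ∈ Ico (2 ^ n * A) (2 ^ n * B), g x * S g n j x ^ (r - 1) := by
  induction j with
  | zero =>
    have h1 : ∑ x ∈ Ico (2 ^ n * A) (2 ^ n * B), g x * S g n 0 x ^ (r - 1) =
        ∑ x ∈ Ico (2 ^ n * A) (2 ^ n * B), S g n 0 x ^ r := by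
      rw [← sum_dav g (fun x => S g n 0 x ^ (r - 1)) le_rfl A B]
      · refine sum_congr rfl fun x _ => ?_
        have h0 := S_nonneg hg n 0 x
        change S g n 0 x * _ = _
        rcases h0.eq_or_lt with h2 | h2
        · rw [← h2, zero_mul, Real.zero_rpow (by linarith)]
        · rw [← Real.rpow_one_add' h0 (by linarith)]
          congr 1
          ring
      · intro x y hxy
        rw [S_congr g n 0 (by simpa using hxy)]
    rw [h1]
    have : 0 ≤ ∑ x ∈ Ico ((2 : ℤ) ^ n * A) (2 ^ n * B), S g n 0 x ^ r :=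
      sum_nonneg fun x _ => Real.rpow_nonneg (S_nonneg hg n 0 x) _
    nlinarith
  | succ j ih =>
    have ih := ih (by omega)
    set k := n - (j + 1) with hk
    have hkn : k ≤ n := Nat.sub_le _ _
    -- increments
    have h1 : ∀ x : ℤ, (r - 1) * (S g n (j + 1) x ^ r - S g n j x ^ r) ≤
        r * (dav g k (x / 2 ^ k) * (S g n (j + 1) x ^ (r - 1) - S g n j x ^ (r - 1))) := by
      intro x
      have h0 := S_nonneg hg n j x
      have hd := dav_nonneg hg k (x / 2 ^ k)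
      change (r - 1) * (max (S g n j x) (dav g k (x / 2 ^ k)) ^ r - _) ≤
        r * (_ * (max (S g n j x) (dav g k (x / 2 ^ k)) ^ (r - 1) - _))
      rcases le_total (dav g k (x / 2 ^ k)) (S g n j x) with h | h
      · rw [max_eq_left h]; simp
      · rw [max_eq_right h]
        exact step_ineq hr h0 hd
    have h2 := sum_le_sum (s := Ico ((2 : ℤ) ^ n * A) (2 ^ n * B)) fun x _ => h1 x
    rw [← mul_sum, ← mul_sum, sum_dav g
      (fun x => S g n (j + 1) x ^ (r - 1) - S g n j x ^ (r - 1)) hkn A B] at h2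
    · simp only [mul_sub, sum_sub_distrib] at h2 ih ⊢
      linarith
    · intro x y hxy
      have e1 : S g n (j + 1) x = S g n (j + 1) y := S_congr g n (j + 1) hxy
      have e2 : S g n j x = S g n j y := by
        apply S_congr
        have e : n - j = k + 1 := by omega
        rw [e, ediv_pow_succ, ediv_pow_succ, hxy]
      rw [e1, e2]

/-- Doob's inequality on an aligned block -/
theorem doob_block {g : ℤ → ℝ} (hg : ∀ x, 0 ≤ g x) {r : ℝ} (hr : 1 < r) (n : ℕ) (A B : ℤ) :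
    ∑ x ∈ Ico (2 ^ n * A) (2 ^ n * B), S g n n x ^ r ≤
      (r / (r - 1)) ^ r * ∑ x ∈ Ico (2 ^ n * A) (2 ^ n * B), g x ^ r := by
  have h1 := doob_tele hg hr n A B n le_rfl
  have hr1 : 0 < r - 1 := by linarith
  have hr0 : 0 < r := by linarith
  set c := r / (r - 1) with hc
  have hc0 : 0 < c := div_pos hr0 hr1
  have h2 : ∑ x ∈ Ico (2 ^ n * A) (2 ^ n * B), S g n n x ^ r ≤
      ∑ x ∈ Ico (2 ^ n * A) (2 ^ n * B), (c * g x) * S g n n x ^ (r - 1) := by
    have : ∑ x ∈ Ico (2 ^ n * A) (2 ^ n * B), (c * g x) * S g n n x ^ (r - 1) =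
        c * ∑ x ∈ Ico (2 ^ n * A) (2 ^ n * B), g x * S g n n x ^ (r - 1) := by
      rw [mul_sum]
      exact sum_congr rfl fun x _ => by ring
    rw [this, hc, div_mul_eq_mul_div, le_div_iff₀ hr1]
    linarith
  have h3 : ∀ x : ℤ, r * ((c * g x) * S g n n x ^ (r - 1)) ≤
      (c * g x) ^ r + (r - 1) * S g n n x ^ r := fun x =>
    elem_ineq hr (S_nonneg hg n n x) (mul_nonneg hc0.le (hg x))
  have h4 := sum_le_sum (s := Ico ((2 : ℤ) ^ n * A) (2 ^ n * B)) fun x _ => h3 x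
  rw [← mul_sum, sum_add_distrib, ← mul_sum] at h4
  have h5 : ∑ x ∈ Ico (2 ^ n * A) (2 ^ n * B), (c * g x) ^ r =
      c ^ r * ∑ x ∈ Ico (2 ^ n * A) (2 ^ n * B), g x ^ r := by
    rw [mul_sum]
    exact sum_congr rfl fun x _ => Real.mul_rpow hc0.le (hg x)
  rw [h5] at h4
  nlinarith

/-- Doob's inequality for the scales `≤ n`, over any finite set of points -/
theorem doob {g : ℤ → ℝ} (hg : ∀ x, 0 ≤ g x) (hs : g.support.Finite) {r : ℝ} (hr : 1 < r) (n : ℕ)
    (X : Finset ℤ) :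
    ∑ x ∈ X, S g n n x ^ r ≤ (r / (r - 1)) ^ r * ∑' x, g x ^ r := by
  have hr0 : 0 < r := by linarith
  obtain ⟨R, hR⟩ : ∃ R : ℕ, ∀ x ∈ X, |x| < R := by
    refine ⟨(X.sup fun x => x.natAbs) + 1, fun x hx => ?_⟩
    have := Finset.le_sup (f := fun x : ℤ => x.natAbs) hx
    have h2 : |x| = (x.natAbs : ℤ) := Int.abs_eq_natAbs x
    rw [h2]
    exact_mod_cast Nat.lt_succ_of_le this
  have hsub : X ⊆ Ico ((2 : ℤ) ^ n * (-R)) (2 ^ n * R) := by
    intro x hx
    have h1 := abs_lt.1 (hR x hx)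
    have h2 : (1 : ℤ) ≤ 2 ^ n := one_le_pow₀ (by norm_num)
    have h3 : (0 : ℤ) ≤ R := Int.natCast_nonneg R
    rw [mem_Ico]
    constructor
    · nlinarith [h1.1]
    · nlinarith [h1.2]
  have hsum : Summable fun x => g x ^ r := by
    apply summable_of_hasFiniteSupport
    refine hs.subset fun x hx => ?_
    intro h0
    apply hx
    simp only [h0, Real.zero_rpow hr0.ne']
  calc ∑ x ∈ X, S g n n x ^ r ≤ ∑ x ∈ Ico ((2 : ℤ) ^ n * (-R)) (2 ^ n * R), S g n n x ^ r :=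
        sum_le_sum_of_subset_of_nonneg hsub fun x _ _ => Real.rpow_nonneg (S_nonneg hg n n x) _
    _ ≤ (r / (r - 1)) ^ r * ∑ x ∈ Ico ((2 : ℤ) ^ n * (-R)) (2 ^ n * R), g x ^ r :=
        doob_block hg hr n _ _
    _ ≤ (r / (r - 1)) ^ r * ∑' x, g x ^ r := by
        refine mul_le_mul_of_nonneg_left ?_ (Real.rpow_nonneg (div_nonneg hr0.le (by linarith)) _)
        exact hsum.sum_le_tsum _ fun x _ => Real.rpow_nonneg (hg x) _

end Vale.Agent.P141.PL.H571
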