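import Vale.Agent.P141.PL.H571.Doob

/-!
# P141, density step: window averages and their running maxima, strong type
-/

namespace Vale.Agent.P141.PL.H571

open Finset

/-- the window of the node `(k, v)`: radius `16 * 2^k` around `2^k v` -/
noncomputable def W (k : ℕ) (v : ℤ) : Finset ℤ := Ico (2 ^ k * (v - 16)) (2 ^ k * (v + 16))

/-- window average of `|f|^q` -/
noncomputable def av (q : ℝ) (f : ℤ → ℝ) (k : ℕ) (v : ℤ) : ℝ :=
  (∑ y ∈ W k v, |f y| ^ q) / 2 ^ (k + 5)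

theorem av_nonneg (q : ℝ) (f : ℤ → ℝ) (k : ℕ) (v : ℤ) : 0 ≤ av q f k v :=
  div_nonneg (sum_nonneg fun _ _ => Real.rpow_nonneg (abs_nonneg _) _) (by positivity)

theorem card_W (k : ℕ) (v : ℤ) : (W k v).card = 2 ^ (k + 5) := by
  rw [W, Int.card_Ico]
  have : (2 : ℤ) ^ k * (v + 16) - 2 ^ k * (v - 16) = ((2 ^ (k + 5) : ℕ) : ℤ) := by
    push_cast; ring
  rw [this, Int.toNat_natCast]

/-- running maximum of the window averages over the ancestors of scale `≤ n` -/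
noncomputable def RMq (q : ℝ) (f : ℤ → ℝ) (n k : ℕ) (v : ℤ) : ℝ :=
  (((Icc k n).sup fun k' => Real.toNNReal (av q f k' (v / 2 ^ (k' - k))) : NNReal) : ℝ)

/-- the same, `L^q` normalised -/
noncomputable def RM (q : ℝ) (f : ℤ → ℝ) (n k : ℕ) (v : ℤ) : ℝ := RMq q f n k v ^ (1 / q)

theorem RMq_nonneg (q : ℝ) (f : ℤ → ℝ) (n k : ℕ) (v : ℤ) : 0 ≤ RMq q f n k v := NNReal.coe_nonneg _

theorem RM_nonneg (q : ℝ) (f : ℤ → ℝ) (n k : ℕ) (v : ℤ) : 0 ≤ RM q f n k v :=
  Real.rpow_nonneg (RMq_nonneg _ _ _ _ _) _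

theorem av_le_RMq (q : ℝ) (f : ℤ → ℝ) {n k k' : ℕ} (h1 : k ≤ k') (h2 : k' ≤ n) (v : ℤ) :
    av q f k' (v / 2 ^ (k' - k)) ≤ RMq q f n k v := by
  have h := Finset.le_sup (f := fun k' => Real.toNNReal (av q f k' (v / 2 ^ (k' - k))))
    (mem_Icc.2 ⟨h1, h2⟩)
  have h3 : ((Real.toNNReal (av q f k' (v / 2 ^ (k' - k))) : NNReal) : ℝ) ≤ RMq q f n k v :=
    NNReal.coe_le_coe.2 h
  rwa [Real.coe_toNNReal _ (av_nonneg _ _ _ _)] at h3

/-- the running maximum controls all the averages of the ancestors -/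
theorem av_le_RM {q : ℝ} (hq : 0 < q) (f : ℤ → ℝ) {n k k' : ℕ} (h1 : k ≤ k') (h2 : k' ≤ n) (v : ℤ) :
    av q f k' (v / 2 ^ (k' - k)) ≤ RM q f n k v ^ q := by
  refine (av_le_RMq q f h1 h2 v).trans (le_of_eq ?_)
  rw [RM, ← Real.rpow_mul (RMq_nonneg _ _ _ _ _), one_div_mul_cancel hq.ne', Real.rpow_one]

theorem RMq_mono (q : ℝ) (f : ℤ → ℝ) {n k k' : ℕ} (h1 : k ≤ k') (v : ℤ) :
    RMq q f n k' (v / 2 ^ (k' - k)) ≤ RMq q f n k v := by
  apply NNReal.coe_le_coe.2
  apply Finset.sup_le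
  intro l hl
  have hl' := mem_Icc.1 hl
  have e : v / 2 ^ (k' - k) / 2 ^ (l - k') = v / 2 ^ (l - k) := by
    rw [← ediv_pow_add]
    congr 2
    omega
  rw [e]
  exact Finset.le_sup (f := fun k' => Real.toNNReal (av q f k' (v / 2 ^ (k' - k))))
    (mem_Icc.2 ⟨h1.trans hl'.1, hl'.2⟩)

theorem RM_mono {q : ℝ} (hq : 0 < q) (f : ℤ → ℝ) {n k k' : ℕ} (h1 : k ≤ k') (v : ℤ) :
    RM q f n k' (v / 2 ^ (k' - k)) ≤ RM q f n k v :=
  Real.rpow_le_rpow (RMq_nonneg _ _ _ _ _) (RMq_mono q f h1 v) (by positivity)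

/-! ### the third shift -/

/-- `(4^m - 1) / 3` -/
def tau : ℕ → ℤ
  | 0 => 0
  | m + 1 => 4 * tau m + 1

theorem tau_eq (m : ℕ) : 3 * tau m = 4 ^ m - 1 := by
  induction m with
  | zero => simp [tau]
  | succ m ih =>
    simp only [tau]
    rw [pow_succ]
    linarith

/-- an interval of length `≤ 2^K / 3` is inside a dyadic interval of scale `K` or inside a
translate by `tau m` of one -/
theorem third (m K : ℕ) (hK : K ≤ 2 * m) (a L : ℤ) (hL0 : 0 < L) (hL : 3 * L ≤ 2 ^ K) :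
    (∃ z : ℤ, 2 ^ K * z ≤ a ∧ a + L ≤ 2 ^ K * (z + 1)) ∨
      ∃ z : ℤ, 2 ^ K * z + tau m ≤ a ∧ a + L ≤ 2 ^ K * (z + 1) + tau m := by
  have hp : (0 : ℤ) < 2 ^ K := by positivity
  by_contra hcon
  push Not at hcon
  obtain ⟨h1, h2⟩ := hcon
  have h1' := h1 (a / 2 ^ K) (Int.mul_ediv_self_le hp.ne')
  have h2' := h2 ((a - tau m) / 2 ^ K) (by
    have := Int.mul_ediv_self_le (x := a - tau m) hp.ne'
    linarith)
  have h3 := Int.lt_mul_ediv_self_add (x := a) hp
  have h4 := Int.lt_mul_ediv_self_add (x := a - tau m) hp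
  set z := a / 2 ^ K
  set z' := (a - tau m) / 2 ^ K
  have h5 : (2 : ℤ) ^ (2 * m) = 2 ^ K * 2 ^ (2 * m - K) := by
    rw [← pow_add]; congr 1; omega
  have h6 : 3 * tau m = 2 ^ K * 2 ^ (2 * m - K) - 1 := by
    rw [tau_eq, ← h5, pow_mul]; norm_num
  -- the difference of the two boundary points
  set u := 2 ^ K * (z' + 1) + tau m - 2 ^ K * (z + 1) with hu
  have h7 : |u| < L := by
    rw [abs_lt]
    constructor <;> (rw [hu]; nlinarith)
  have h8 : 3 * u = 2 ^ K * (3 * (z' - z) + 2 ^ (2 * m - K)) - 1 := by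
    rw [hu]
    linear_combination h6
  set t := 3 * (z' - z) + 2 ^ (2 * m - K) with ht
  have h9 := abs_lt.1 h7
  -- 3 u = 2^K t - 1 and |3u| < 3L ≤ 2^K: t = 0 or t = 1
  have h10 : 2 ^ K * t - 1 < 2 ^ K - 2 := by
    have : 3 * u ≤ 3 * (L - 1) := by linarith [h9.2]
    linarith
  have h11 : -(2 ^ K) < 2 ^ K * t - 1 := by
    have : -(3 * L) < 3 * u := by linarith [h9.1]
    linarith
  have h12 : t < 1 := by
    by_contra h
    push Not at h
    nlinarith
  have h13 : -1 < t := by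
    by_contra h
    push Not at h
    nlinarith
  have h14 : t = 0 := by omega
  rw [h14] at h8
  omega

/-- comparison of a window average with the dyadic maximal functions -/
theorem av_le_S (q : ℝ) (f : ℤ → ℝ) {n k m : ℕ} (hk : k ≤ n) (hm : n + 7 ≤ 2 * m) (x : ℤ) :
    av q f k (x / 2 ^ k) ≤ 4 * (S (fun y => |f y| ^ q) (n + 7) (n + 7) x +
      S (fun y => |f (y + tau m)| ^ q) (n + 7) (n + 7) (x - tau m)) := by
  have hp : (0 : ℤ) < 2 ^ k := by positivity
  have hg : ∀ y, 0 ≤ |f y| ^ q := fun y => Real.rpow_nonneg (abs_nonneg _) _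
  have hS1 := S_nonneg (g := fun y => |f y| ^ q) hg (n + 7) (n + 7) x
  have hS2 := S_nonneg (g := fun y => |f (y + tau m)| ^ q) (fun y => hg _) (n + 7) (n + 7)
    (x - tau m)
  have hx1 : 2 ^ k * (x / 2 ^ k) ≤ x := Int.mul_ediv_self_le hp.ne'
  have hx2 : x < 2 ^ k * (x / 2 ^ k) + 2 ^ k := Int.lt_mul_ediv_self_add hp
  set v := x / 2 ^ k with hv
  have e7 : (2 : ℤ) ^ (k + 7) = 128 * 2 ^ k := by rw [pow_add]; ring
  have e7' : (2 : ℝ) ^ (k + 7) = 4 * 2 ^ (k + 5) := by rw [pow_add, pow_add]; ring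
  have h := third m (k + 7) (by omega) (2 ^ k * (v - 16)) (2 ^ k * 32) (by positivity)
    (by rw [e7]; linarith)
  rcases h with ⟨z, hz1, hz2⟩ | ⟨z, hz1, hz2⟩
  · have hxz : x / 2 ^ (k + 7) = z := by
      apply mem_cell.1
      rw [mem_Ico]
      constructor <;> nlinarith
    have h1 : av q f k v ≤ 4 * dav (fun y => |f y| ^ q) (k + 7) z := by
      rw [av, dav, e7', div_le_iff₀ (by positivity)]
      have : ∑ y ∈ W k v, |f y| ^ q ≤ ∑ y ∈ Ico (2 ^ (k + 7) * z) (2 ^ (k + 7) * (z + 1)),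
          |f y| ^ q := by
        apply sum_le_sum_of_subset_of_nonneg _ fun y _ _ => hg y
        intro y hy
        rw [W, mem_Ico] at hy
        rw [mem_Ico]
        constructor <;> nlinarith [hy.1, hy.2]
      calc _ ≤ _ := this
        _ = _ := by field_simp
    have h2 := dav_le (fun y => |f y| ^ q) (n := n + 7) (k := k + 7) (by omega) x
    rw [hxz] at h2
    linarith
  · have hxz : (x - tau m) / 2 ^ (k + 7) = z := by
      apply mem_cell.1
      rw [mem_Ico]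
      constructor <;> nlinarith
    have h1 : av q f k v ≤ 4 * dav (fun y => |f (y + tau m)| ^ q) (k + 7) z := by
      rw [av, dav, e7', div_le_iff₀ (by positivity)]
      have : ∑ y ∈ W k v, |f y| ^ q ≤ ∑ y ∈ Ico (2 ^ (k + 7) * z) (2 ^ (k + 7) * (z + 1)),
          |f (y + tau m)| ^ q := by
        rw [← Finset.sum_image (s := Ico (2 ^ (k + 7) * z) (2 ^ (k + 7) * (z + 1)))
          (g := fun y => y + tau m) (f := fun y => |f y| ^ q)
          (fun a _ b _ h => by simpa using h)]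
        apply sum_le_sum_of_subset_of_nonneg _ fun y _ _ => hg y
        intro y hy
        rw [W, mem_Ico] at hy
        rw [mem_image]
        refine ⟨y - tau m, ?_, by ring⟩
        rw [mem_Ico]
        constructor <;> nlinarith [hy.1, hy.2]
      calc _ ≤ _ := this
        _ = _ := by field_simp
    have h2 := dav_le (fun y => |f (y + tau m)| ^ q) (n := n + 7) (k := k + 7) (by omega)
      (x - tau m)
    rw [hxz] at h2
    linarith

theorem RMq_le_S (q : ℝ) (f : ℤ → ℝ) {n m : ℕ} (hm : n + 7 ≤ 2 * m) (x : ℤ) :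
    RMq q f n 0 x ≤ 4 * (S (fun y => |f y| ^ q) (n + 7) (n + 7) x +
      S (fun y => |f (y + tau m)| ^ q) (n + 7) (n + 7) (x - tau m)) := by
  have hg : ∀ y, 0 ≤ |f y| ^ q := fun y => Real.rpow_nonneg (abs_nonneg _) _
  have hS1 := S_nonneg (g := fun y => |f y| ^ q) hg (n + 7) (n + 7) x
  have hS2 := S_nonneg (g := fun y => |f (y + tau m)| ^ q) (fun y => hg _) (n + 7) (n + 7)
    (x - tau m)
  have h0 : 0 ≤ 4 * (S (fun y => |f y| ^ q) (n + 7) (n + 7) x +
      S (fun y => |f (y + tau m)| ^ q) (n + 7) (n + 7) (x - tau m)) := by positivity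
  rw [RMq, ← Real.coe_toNNReal _ h0, NNReal.coe_le_coe]
  apply Finset.sup_le
  intro k hk
  apply Real.toNNReal_le_toNNReal
  rw [Nat.sub_zero]
  exact av_le_S q f (mem_Icc.1 hk).2 hm x

/-- **Hardy–Littlewood**: `‖RM q f‖_p ≤ C ‖f‖_p`, `p > q` -/
theorem hardy_littlewood {q p : ℝ} (hq : 0 < q) (hqp : q < p) :
    ∃ C : ℝ, 0 < C ∧ ∀ (f : ℤ → ℝ), f.support.Finite → ∀ (n : ℕ) (X : Finset ℤ),
      ∑ x ∈ X, RM q f n 0 x ^ p ≤ C * ∑' x, |f x| ^ p := by
  set r := p / q with hr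
  have hr1 : 1 < r := (one_lt_div hq).2 hqp
  have hr0 : 0 < r := by linarith
  set c := (r / (r - 1)) ^ r with hc
  have hc0 : 0 < c := Real.rpow_pos_of_pos (div_pos hr0 (by linarith)) _
  refine ⟨4 ^ r * (2 ^ r * (2 * c)), by positivity, fun f hf n X => ?_⟩
  obtain ⟨m, hm⟩ : ∃ m : ℕ, n + 7 ≤ 2 * m := ⟨n + 7, by omega⟩
  set g : ℤ → ℝ := fun y => |f y| ^ q with hgdef
  set g' : ℤ → ℝ := fun y => |f (y + tau m)| ^ q with hgdef'
  have hg : ∀ y, 0 ≤ g y := fun y => Real.rpow_nonneg (abs_nonneg _) _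
  have hg' : ∀ y, 0 ≤ g' y := fun y => Real.rpow_nonneg (abs_nonneg _) _
  have hgs : g.support.Finite := hf.subset fun x hx => by
    intro h0
    apply hx
    simp only [hgdef, h0, abs_zero, Real.zero_rpow hq.ne']
  have hgs' : g'.support.Finite := by
    have : g'.support ⊆ (fun y => y + tau m) ⁻¹' f.support := fun x hx => by
      intro h0
      apply hx
      simp only [hgdef', h0, abs_zero, Real.zero_rpow hq.ne']
    exact (hf.preimage (fun a _ b _ h => by simpa using h)).subset this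
  have hgr : ∀ y, g y ^ r = |f y| ^ p := fun y => by
    simp only [hgdef]
    rw [← Real.rpow_mul (abs_nonneg _), hr, mul_div_cancel₀ _ hq.ne']
  have hgr' : ∑' y, g' y ^ r = ∑' y, |f y| ^ p := by
    rw [← (Equiv.addRight (tau m)).tsum_eq (fun y => |f y| ^ p)]
    refine tsum_congr fun y => ?_
    simp only [hgdef', Equiv.coe_addRight]
    rw [← Real.rpow_mul (abs_nonneg _), hr, mul_div_cancel₀ _ hq.ne']
  have h1 : ∀ x : ℤ, RM q f n 0 x ^ p ≤ 4 ^ r * (2 ^ r * (S g (n + 7) (n + 7) x ^ r +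
      S g' (n + 7) (n + 7) (x - tau m) ^ r)) := by
    intro x
    have hS1 := S_nonneg hg (n + 7) (n + 7) x
    have hS2 := S_nonneg hg' (n + 7) (n + 7) (x - tau m)
    have e : RM q f n 0 x ^ p = RMq q f n 0 x ^ r := by
      rw [RM, ← Real.rpow_mul (RMq_nonneg _ _ _ _ _), hr, one_div_mul_eq_div]
    rw [e]
    refine (Real.rpow_le_rpow (RMq_nonneg _ _ _ _ _) (RMq_le_S q f hm x) hr0.le).trans ?_
    rw [Real.mul_rpow (by norm_num) (by positivity)]
    refine mul_le_mul_of_nonneg_left ?_ (by positivity)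
    -- (a + b)^r ≤ 2^r (a^r + b^r)
    set a := S g (n + 7) (n + 7) x
    set b := S g' (n + 7) (n + 7) (x - tau m)
    rcases le_total a b with hab | hab
    · calc (a + b) ^ r ≤ (2 * b) ^ r := Real.rpow_le_rpow (by positivity) (by linarith) hr0.le
        _ = 2 ^ r * b ^ r := Real.mul_rpow (by norm_num) hS2
        _ ≤ 2 ^ r * (a ^ r + b ^ r) := by
          refine mul_le_mul_of_nonneg_left ?_ (by positivity)
          linarith [Real.rpow_nonneg hS1 r]
    · calc (a + b) ^ r ≤ (2 * a) ^ r := Real.rpow_le_rpow (by positivity) (by linarith) hr0.le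
        _ = 2 ^ r * a ^ r := Real.mul_rpow (by norm_num) hS1
        _ ≤ 2 ^ r * (a ^ r + b ^ r) := by
          refine mul_le_mul_of_nonneg_left ?_ (by positivity)
          linarith [Real.rpow_nonneg hS2 r]
  have h2 := doob hg hgs hr1 (n + 7) X
  have h3 : ∑ x ∈ X, S g' (n + 7) (n + 7) (x - tau m) ^ r ≤ c * ∑' x, g' x ^ r := by
    have := doob hg' hgs' hr1 (n + 7) (X.image fun x => x - tau m)
    rwa [Finset.sum_image (fun a _ b _ h => by simpa using h)] at this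
  calc ∑ x ∈ X, RM q f n 0 x ^ p ≤ ∑ x ∈ X, 4 ^ r * (2 ^ r * (S g (n + 7) (n + 7) x ^ r +
      S g' (n + 7) (n + 7) (x - tau m) ^ r)) := sum_le_sum fun x _ => h1 x
    _ = 4 ^ r * (2 ^ r * (∑ x ∈ X, S g (n + 7) (n + 7) x ^ r +
        ∑ x ∈ X, S g' (n + 7) (n + 7) (x - tau m) ^ r)) := by
        rw [← mul_sum, ← mul_sum, sum_add_distrib]
    _ ≤ 4 ^ r * (2 ^ r * (c * ∑' x, g x ^ r + c * ∑' x, g' x ^ r)) := by
        refine mul_le_mul_of_nonneg_left ?_ (by positivity)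
        refine mul_le_mul_of_nonneg_left ?_ (by positivity)
        exact add_le_add h2 h3
    _ = 4 ^ r * (2 ^ r * (2 * c)) * ∑' x, |f x| ^ p := by
        rw [hgr', tsum_congr hgr]
        ring

end Vale.Agent.P141.PL.H571
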