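import Vale.Agent.P141.PL.H571.Max
import Vale.Agent.P141.PL.H620.Disc

/-!
# P141, density step: the single scale bound
-/

namespace Vale.Agent.P141.PL.H571

open Finset Vale.Agent.P141.PL.H620

/-- counting lemma: two linear forms, injective together with the last two coordinates -/
theorem sum_pts_le (k : ℕ) (A B : Finset ℤ) (La Lb : (Fin 4 → ℕ) → ℤ)
    (ha : ∀ x ∈ pts k, La x ∈ A) (hb : ∀ x ∈ pts k, Lb x ∈ B)
    (hinj : ∀ x y, x 2 = y 2 → x 3 = y 3 → La x = La y → Lb x = Lb y → x = y)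
    {g h : ℤ → ℝ} (hg : ∀ x, 0 ≤ g x) (hh : ∀ x, 0 ≤ h x) :
    ∑ x ∈ pts k, g (La x) * h (Lb x) ≤ 4 ^ k * ((∑ y ∈ A, g y) * ∑ y ∈ B, h y) := by
  classical
  let Φ : (Fin 4 → ℕ) → (ℕ × ℕ) × (ℤ × ℤ) := fun x => ((x 2, x 3), (La x, Lb x))
  have hΦ : Set.InjOn Φ (pts k : Set (Fin 4 → ℕ)) := by
    intro x _ y _ hxy
    simp only [Φ, Prod.mk.injEq] at hxy
    exact hinj x y hxy.1.1 hxy.1.2 hxy.2.1 hxy.2.2
  have h1 : ∑ x ∈ pts k, g (La x) * h (Lb x) = ∑ z ∈ (pts k).image Φ, g z.2.1 * h z.2.2 := by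
    rw [sum_image hΦ]
  rw [h1]
  have hsub : (pts k).image Φ ⊆ (range (2 ^ k) ×ˢ range (2 ^ k)) ×ˢ (A ×ˢ B) := by
    intro z hz
    obtain ⟨x, hx, rfl⟩ := mem_image.1 hz
    have hx' := Fintype.mem_piFinset.1 hx
    exact mem_product.2 ⟨mem_product.2 ⟨hx' 2, hx' 3⟩, mem_product.2 ⟨ha x hx, hb x hx⟩⟩
  refine (sum_le_sum_of_subset_of_nonneg hsub fun z _ _ => mul_nonneg (hg _) (hh _)).trans ?_
  rw [sum_product]
  simp only [sum_product (s := A) (t := B)]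
  rw [sum_const, card_product, card_range, nsmul_eq_mul]
  have h4 : (((2 ^ k * 2 ^ k : ℕ)) : ℝ) = 4 ^ k := by
    push_cast
    rw [← mul_pow]
    norm_num
  rw [h4, sum_mul_sum]

theorem mem_W {k : ℕ} {v y : ℤ} : y ∈ W k v ↔ 2 ^ k * (v - 16) ≤ y ∧ y < 2 ^ k * (v + 16) := by
  rw [W, mem_Ico]

theorem pts_lt {k : ℕ} {x : Fin 4 → ℕ} (hx : x ∈ pts k) (i : Fin 4) : (x i : ℤ) < 2 ^ k := by
  have h := mem_range.1 (Fintype.mem_piFinset.1 hx i)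
  exact_mod_cast h

/-- the four linear forms of a canonical box stay in the window of the node -/
theorem ell_mem_W {k : ℕ} {o v : ℤ} (ho : o = 1 ∨ o = -1) {x : Fin 4 → ℕ} (hx : x ∈ pts k)
    (j : Fin 4) : ell j (pt k (nn o v 0 0) x) ∈ W k v := by
  rw [ell_nn, mem_W]
  have h0 := pts_lt hx 0
  have h1 := pts_lt hx 1
  have h2 := pts_lt hx 2
  have h3 := pts_lt hx 3
  have p0 : (0 : ℤ) ≤ (x 0 : ℤ) := Int.natCast_nonneg _
  have p1 : (0 : ℤ) ≤ (x 1 : ℤ) := Int.natCast_nonneg _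
  have p2 : (0 : ℤ) ≤ (x 2 : ℤ) := Int.natCast_nonneg _
  have p3 : (0 : ℤ) ≤ (x 3 : ℤ) := Int.natCast_nonneg _
  have hpos : (0 : ℤ) < 2 ^ k := by positivity
  simp only [mo, uu, Fin.sum_univ_four]
  generalize (2 : ℤ) ^ k = t at *
  rcases ho with rfl | rfl <;> fin_cases j <;>
    simp <;> constructor <;> nlinarith

theorem abs_loc1_le {k : ℕ} {o v : ℤ} (ho : o = 1 ∨ o = -1) (f : Fin 4 → ℤ → ℝ) :
    |loc1 k (nn o v 0 0) f| ≤ 2 ^ k * ∏ j, √(∑ y ∈ W k v, |f j y| ^ 2) := by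
  set L : Fin 4 → (Fin 4 → ℕ) → ℤ := fun j x => ell j (pt k (nn o v 0 0) x) with hL
  have hsg : ∀ x : Fin 4 → ℕ, |∏ i, sg k (x i)| = 1 := by
    intro x
    rw [abs_prod]
    refine prod_eq_one fun i _ => ?_
    unfold sg
    split_ifs <;> simp
  have h1 : |loc1 k (nn o v 0 0) f| ≤ ((2 : ℝ) ^ k)⁻¹ * ∑ x ∈ pts k,
      (|f 0 (L 0 x)| * |f 1 (L 1 x)|) * (|f 2 (L 2 x)| * |f 3 (L 3 x)|) := by
    rw [loc1, abs_mul, abs_of_pos (by positivity : (0 : ℝ) < ((2 : ℝ) ^ k)⁻¹)]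
    refine mul_le_mul_of_nonneg_left ?_ (by positivity)
    refine (abs_sum_le_sum_abs _ _).trans (sum_le_sum fun x _ => le_of_eq ?_)
    rw [abs_mul, hsg, one_mul, abs_prod, Fin.prod_univ_four]
    ring
  have h01 : ∑ x ∈ pts k, (|f 0 (L 0 x)| * |f 1 (L 1 x)|) ^ 2 ≤
      4 ^ k * ((∑ y ∈ W k v, |f 0 y| ^ 2) * ∑ y ∈ W k v, |f 1 y| ^ 2) := by
    simp only [mul_pow]
    refine sum_pts_le k (W k v) (W k v) (L 0) (L 1) (fun x hx => ell_mem_W ho hx 0)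
      (fun x hx => ell_mem_W ho hx 1) ?_ (g := fun y => |f 0 y| ^ 2) (h := fun y => |f 1 y| ^ 2)
      (fun _ => by positivity) (fun _ => by positivity)
    intro x y e2 e3 ea eb
    simp only [hL, ell_nn, mo, uu, Fin.sum_univ_four] at ea eb
    simp at ea eb
    funext i
    fin_cases i <;> simp <;> omega
  have h23 : ∑ x ∈ pts k, (|f 2 (L 2 x)| * |f 3 (L 3 x)|) ^ 2 ≤
      4 ^ k * ((∑ y ∈ W k v, |f 2 y| ^ 2) * ∑ y ∈ W k v, |f 3 y| ^ 2) := by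
    simp only [mul_pow]
    refine sum_pts_le k (W k v) (W k v) (L 2) (L 3) (fun x hx => ell_mem_W ho hx 2)
      (fun x hx => ell_mem_W ho hx 3) ?_ (g := fun y => |f 2 y| ^ 2) (h := fun y => |f 3 y| ^ 2)
      (fun _ => by positivity) (fun _ => by positivity)
    intro x y e2 e3 ea eb
    simp only [hL, ell_nn, mo, uu, Fin.sum_univ_four] at ea eb
    simp at ea eb
    funext i
    fin_cases i <;> simp <;> omega
  set a : Fin 4 → ℝ := fun j => ∑ y ∈ W k v, |f j y| ^ 2 with ha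
  have ha0 : ∀ j, 0 ≤ a j := fun j => sum_nonneg fun _ _ => by positivity
  have hcs := Real.sum_mul_le_sqrt_mul_sqrt (pts k) (fun x => |f 0 (L 0 x)| * |f 1 (L 1 x)|)
    (fun x => |f 2 (L 2 x)| * |f 3 (L 3 x)|)
  have hs : ∑ x ∈ pts k, (|f 0 (L 0 x)| * |f 1 (L 1 x)|) * (|f 2 (L 2 x)| * |f 3 (L 3 x)|) ≤
      4 ^ k * ∏ j, √(a j) := by
    refine hcs.trans ?_
    have e1 : √(∑ x ∈ pts k, (|f 0 (L 0 x)| * |f 1 (L 1 x)|) ^ 2) ≤ 2 ^ k * (√(a 0) * √(a 1)) := by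
      refine (Real.sqrt_le_sqrt h01).trans (le_of_eq ?_)
      rw [Real.sqrt_mul (by positivity), Real.sqrt_mul (ha0 0)]
      congr 1
      rw [show (4 : ℝ) ^ k = (2 ^ k) ^ 2 by rw [← pow_mul, mul_comm, pow_mul]; norm_num]
      exact Real.sqrt_sq (by positivity)
    have e2 : √(∑ x ∈ pts k, (|f 2 (L 2 x)| * |f 3 (L 3 x)|) ^ 2) ≤ 2 ^ k * (√(a 2) * √(a 3)) := by
      refine (Real.sqrt_le_sqrt h23).trans (le_of_eq ?_)
      rw [Real.sqrt_mul (by positivity), Real.sqrt_mul (ha0 2)]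
      congr 1
      rw [show (4 : ℝ) ^ k = (2 ^ k) ^ 2 by rw [← pow_mul, mul_comm, pow_mul]; norm_num]
      exact Real.sqrt_sq (by positivity)
    refine (mul_le_mul e1 e2 (Real.sqrt_nonneg _) (by positivity)).trans (le_of_eq ?_)
    rw [Fin.prod_univ_four, show (4 : ℝ) ^ k = 2 ^ k * 2 ^ k by rw [← mul_pow]; norm_num]
    ring
  refine h1.trans ((mul_le_mul_of_nonneg_left hs (by positivity)).trans (le_of_eq ?_))
  rw [← mul_assoc]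
  congr 1
  rw [show (4 : ℝ) ^ k = 2 ^ k * 2 ^ k by rw [← mul_pow]; norm_num]
  field_simp

/-- **single scale bound**, with explicit bounds for the window averages -/
theorem single_scale {k : ℕ} {o v : ℤ} (ho : o = 1 ∨ o = -1) (f : Fin 4 → ℤ → ℝ) (E : Fin 4 → ℝ)
    (hE : ∀ j, ∑ y ∈ W k v, |f j y| ^ 2 ≤ 2 ^ (k + 5) * E j) :
    ((4 : ℝ) ^ k)⁻¹ * |loc1 k (nn o v 0 0) f| ≤ 2 ^ 10 * 2 ^ k * ∏ j, √(E j) := by
  have h1 := abs_loc1_le (k := k) (v := v) ho f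
  have h2 : ∏ j, √(∑ y ∈ W k v, |f j y| ^ 2) ≤ ∏ j, (√(2 ^ (k + 5)) * √(E j)) := by
    refine prod_le_prod (fun j _ => Real.sqrt_nonneg _) fun j _ => ?_
    rw [← Real.sqrt_mul (by positivity)]
    exact Real.sqrt_le_sqrt (hE j)
  rw [prod_mul_distrib] at h2
  have h3 : ∏ _j : Fin 4, √((2 : ℝ) ^ (k + 5)) = 2 ^ 10 * 4 ^ k := by
    rw [Fin.prod_univ_four]
    have e : √((2 : ℝ) ^ (k + 5)) * √((2 : ℝ) ^ (k + 5)) = 2 ^ (k + 5) :=
      Real.mul_self_sqrt (by positivity)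
    calc √((2 : ℝ) ^ (k + 5)) * √((2 : ℝ) ^ (k + 5)) * √((2 : ℝ) ^ (k + 5)) * √((2 : ℝ) ^ (k + 5))
        = (√((2 : ℝ) ^ (k + 5)) * √((2 : ℝ) ^ (k + 5))) *
          (√((2 : ℝ) ^ (k + 5)) * √((2 : ℝ) ^ (k + 5))) := by ring
      _ = 2 ^ (k + 5) * 2 ^ (k + 5) := by rw [e]
      _ = 2 ^ 10 * 4 ^ k := by
          rw [show (4 : ℝ) ^ k = 2 ^ k * 2 ^ k by rw [← mul_pow]; norm_num]
          ring
  rw [h3] at h2
  have h4 : ((4 : ℝ) ^ k)⁻¹ * |loc1 k (nn o v 0 0) f| ≤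
      ((4 : ℝ) ^ k)⁻¹ * (2 ^ k * (2 ^ 10 * 4 ^ k * ∏ j, √(E j))) :=
    mul_le_mul_of_nonneg_left (h1.trans (mul_le_mul_of_nonneg_left h2 (by positivity)))
      (by positivity)
  refine h4.trans (le_of_eq ?_)
  field_simp

/-- the same with the window averages themselves -/
theorem single_scale' {k : ℕ} {o v : ℤ} (ho : o = 1 ∨ o = -1) (f : Fin 4 → ℤ → ℝ) :
    ((4 : ℝ) ^ k)⁻¹ * |loc1 k (nn o v 0 0) f| ≤
      2 ^ 10 * 2 ^ k * ∏ j, √((∑ y ∈ W k v, |f j y| ^ 2) / 2 ^ (k + 5)) :=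
  single_scale ho f _ fun j => le_of_eq (by field_simp)

end Vale.Agent.P141.PL.H571
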