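import Vale.Agent.P141.PL.H571.Max

/-!
# P141, density step: stopping at the running maxima, geometric sum over the tops
-/

namespace Vale.Agent.P141.PL.H571

open Finset

/-- sum of distinct powers of two -/
theorem sum_zpow_le {ι : Type*} (s : Finset ι) (c : ι → ℤ) (m : ℤ) (hinj : Set.InjOn c s)
    (hle : ∀ i ∈ s, c i ≤ m) : ∑ i ∈ s, (2 : ℝ) ^ c i ≤ 2 * 2 ^ m := by
  have h1 : ∀ i ∈ s, (2 : ℝ) ^ c i = 2 ^ m * (1 / 2) ^ (m - c i).toNat := by
    intro i hi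
    have h := hle i hi
    have e : c i = m - ((m - c i).toNat : ℤ) := by
      rw [Int.toNat_of_nonneg (by omega)]; ring
    rw [one_div, inv_pow, ← zpow_natCast, ← div_eq_mul_inv, ← zpow_sub₀ (by norm_num), ← e]
  rw [sum_congr rfl h1, ← mul_sum, mul_comm]
  refine mul_le_mul_of_nonneg_right ?_ (by positivity)
  have hinj2 : Set.InjOn (fun i => (m - c i).toNat) s := by
    intro i hi j hj h
    apply hinj hi hj
    have h2 := hle i hi
    have h3 := hle j hj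
    simp only at h
    omega
  rw [← sum_image (s := s) (g := fun i => (m - c i).toNat) (f := fun n : ℕ => ((1 : ℝ) / 2) ^ n)
    hinj2]
  exact (summable_geometric_two.sum_le_tsum _ fun _ _ => by positivity).trans
    (le_of_eq tsum_geometric_two)

theorem prod_two_zpow {ι : Type*} (s : Finset ι) (c : ι → ℤ) :
    ∏ j ∈ s, (2 : ℝ) ^ c j = 2 ^ (∑ j ∈ s, c j) := by
  classical
  induction s using Finset.induction_on with
  | empty => simp
  | insert a s ha ih => rw [prod_insert ha, sum_insert ha, zpow_add₀ two_ne_zero, ih]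

/-- Abstract stopping theorem on the dyadic tree of `ℤ` (scales `≤ n`). -/
theorem stop_abs {ι : Type*} [Fintype ι] (n : ℕ) (A : ι → ℕ → ℤ → ℝ)
    (hmono : ∀ j k k' v, k ≤ k' → k' ≤ n → A j k' (v / 2 ^ (k' - k)) ≤ A j k v)
    (w : ℕ → ℤ → ℝ) (P : ℝ) (hP : 0 ≤ P)
    (hw0 : ∀ k v, k ≤ n → (∃ j, A j k v ≤ 0) → w k v = 0)
    (hroot : ∀ K ≤ n, ∀ V : ℤ, ∀ a : ι → ℝ, (∀ j, 0 < a j) → ∀ 𝒩 : Finset (ℕ × ℤ),
      (∀ N ∈ 𝒩, N.1 ≤ K ∧ N.2 / 2 ^ (K - N.1) = V ∧ ∀ j, A j N.1 N.2 ≤ a j) →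
      ∑ N ∈ 𝒩, w N.1 N.2 ≤ P * 2 ^ K * ∏ j, a j)
    (𝒮 : Finset (ℕ × ℤ)) (h𝒮 : ∀ N ∈ 𝒮, N.1 ≤ n) :
    ∃ X : Finset ℤ, ∑ N ∈ 𝒮, w N.1 N.2 ≤
      P * (2 * 2 ^ Fintype.card ι) * ∑ x ∈ X, ∏ j, A j 0 x := by
  classical
  -- the class of a node
  let c : ℕ → ℤ → ι → ℤ := fun k v j => ⌈Real.logb 2 (A j k v)⌉
  let pos : ℕ → ℤ → Prop := fun k v => ∀ j, 0 < A j k v
  have hposmono : ∀ k k' v, k ≤ k' → k' ≤ n → pos k' (v / 2 ^ (k' - k)) → pos k v :=
    fun k k' v h1 h2 h3 j => (h3 j).trans_le (hmono j k k' v h1 h2)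
  have hcmono : ∀ k k' v, k ≤ k' → k' ≤ n → pos k' (v / 2 ^ (k' - k)) → ∀ j,
      c k' (v / 2 ^ (k' - k)) j ≤ c k v j := by
    intro k k' v h1 h2 h3 j
    apply Int.ceil_le_ceil
    exact Real.logb_le_logb_of_le (by norm_num) (h3 j) (hmono j k k' v h1 h2)
  have hc1 : ∀ k v, pos k v → ∀ j, A j k v ≤ 2 ^ c k v j := by
    intro k v h j
    have h1 : Real.logb 2 (A j k v) ≤ (c k v j : ℝ) := Int.le_ceil _
    rw [Real.logb_le_iff_le_rpow (by norm_num) (h j), Real.rpow_intCast] at h1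
    exact h1
  have hc2 : ∀ k v, pos k v → ∀ j, (2 : ℝ) ^ c k v j ≤ 2 * A j k v := by
    intro k v h j
    have h1 : ((c k v j : ℤ) : ℝ) < Real.logb 2 (A j k v) + 1 := Int.ceil_lt_add_one _
    have h2 : ((c k v j - 1 : ℤ) : ℝ) ≤ Real.logb 2 (A j k v) := by push_cast; linarith
    rw [Real.le_logb_iff_rpow_le (by norm_num) (h j), Real.rpow_intCast,
      zpow_sub_one₀ (by norm_num)] at h2
    linarith
  -- the top scale of a node
  let good : ℕ → ℤ → ℕ → Prop := fun k v k' =>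
    k ≤ k' ∧ pos k' (v / 2 ^ (k' - k)) ∧ c k' (v / 2 ^ (k' - k)) = c k v
  let κ : ℕ → ℤ → ℕ := fun k v => Nat.findGreatest (good k v) n
  let top : ℕ × ℤ → ℕ × ℤ := fun N => (κ N.1 N.2, N.2 / 2 ^ (κ N.1 N.2 - N.1))
  have hgood : ∀ k v, k ≤ n → pos k v → good k v (κ k v) := by
    intro k v h1 h2
    have h3 : good k v k := by
      refine ⟨le_rfl, ?_, ?_⟩
      · simpa using h2
      · simp
    exact Nat.findGreatest_spec (P := good k v) h1 h3
  have hκn : ∀ k v, κ k v ≤ n := fun k v => Nat.findGreatest_le n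
  have hκmax : ∀ k v k', κ k v < k' → k' ≤ n → ¬ good k v k' := fun k v k' h1 h2 =>
    Nat.findGreatest_is_greatest h1 h2
  -- nodes that count
  let 𝒬 := 𝒮.filter fun N => pos N.1 N.2
  have hsum : ∑ N ∈ 𝒮, w N.1 N.2 = ∑ N ∈ 𝒬, w N.1 N.2 := by
    symm
    apply sum_subset (filter_subset _ _)
    intro N hN hN'
    apply hw0 _ _ (h𝒮 N hN)
    by_contra hcon
    push Not at hcon
    exact hN' (mem_filter.2 ⟨hN, hcon⟩)
  let 𝒯 := 𝒬.image top
  -- the points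
  let X : Finset ℤ := 𝒯.biUnion fun t => Ico (2 ^ t.1 * t.2) (2 ^ t.1 * (t.2 + 1))
  have htopT : ∀ t ∈ 𝒯, t.1 ≤ n ∧ pos t.1 t.2 ∧ ∀ k', t.1 < k' → k' ≤ n →
      ¬ (pos k' (t.2 / 2 ^ (k' - t.1)) ∧ c k' (t.2 / 2 ^ (k' - t.1)) = c t.1 t.2) := by
    intro t ht
    obtain ⟨N, hN, rfl⟩ := mem_image.1 ht
    obtain ⟨hN1, hN2⟩ := mem_filter.1 hN
    have hg := hgood N.1 N.2 (h𝒮 N hN1) hN2
    refine ⟨hκn _ _, hg.2.1, ?_⟩
    intro k' h1 h2 h3
    apply hκmax N.1 N.2 k' h1 h2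
    have e : N.2 / 2 ^ (κ N.1 N.2 - N.1) / 2 ^ (k' - κ N.1 N.2) = N.2 / 2 ^ (k' - N.1) := by
      rw [← ediv_pow_add]
      congr 2
      have := hg.1
      have h1' : κ N.1 N.2 < k' := h1
      omega
    simp only [top] at h3
    rw [e] at h3
    exact ⟨hg.1.trans (le_of_lt h1), h3.1, h3.2.trans hg.2.2⟩
  refine ⟨X, ?_⟩
  have hstep1 : ∑ N ∈ 𝒬, w N.1 N.2 ≤
      ∑ t ∈ 𝒯, P * 2 ^ t.1 * ∏ j, (2 : ℝ) ^ c t.1 t.2 j := by
    rw [← sum_fiberwise_of_maps_to (g := top) (t := 𝒯) (fun N hN => mem_image_of_mem _ hN)]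
    refine sum_le_sum fun t ht => ?_
    refine hroot t.1 (htopT t ht).1 t.2 (fun j => (2 : ℝ) ^ c t.1 t.2 j)
      (fun j => by positivity) _ ?_
    intro N hN
    obtain ⟨hN1, hN2⟩ := mem_filter.1 hN
    obtain ⟨hN3, hN4⟩ := mem_filter.1 hN1
    have hg := hgood N.1 N.2 (h𝒮 N hN3) hN4
    rw [← hN2]
    refine ⟨hg.1, rfl, fun j => ?_⟩
    have h1 := hc1 N.1 N.2 hN4 j
    have h2 : c (top N).1 (top N).2 j = c N.1 N.2 j := congrFun hg.2.2 j
    rw [h2]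
    exact h1
  have hstep2 : ∑ t ∈ 𝒯, P * 2 ^ t.1 * ∏ j, (2 : ℝ) ^ c t.1 t.2 j =
      P * ∑ x ∈ X, ∑ t ∈ 𝒯.filter (fun t => x / 2 ^ t.1 = t.2), ∏ j, (2 : ℝ) ^ c t.1 t.2 j := by
    rw [mul_sum]
    have e1 : ∀ t ∈ 𝒯, P * 2 ^ t.1 * ∏ j, (2 : ℝ) ^ c t.1 t.2 j =
        ∑ x ∈ X, if x / 2 ^ t.1 = t.2 then P * ∏ j, (2 : ℝ) ^ c t.1 t.2 j else 0 := by
      intro t ht
      rw [← sum_filter, sum_const]
      have e2 : X.filter (fun x => x / 2 ^ t.1 = t.2) = Ico (2 ^ t.1 * t.2) (2 ^ t.1 * (t.2 + 1)) := by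
        ext x
        rw [mem_filter, ← mem_cell]
        refine ⟨fun h => h.2, fun h => ⟨mem_biUnion.2 ⟨t, ht, h⟩, h⟩⟩
      rw [e2, card_cell, nsmul_eq_mul]
      push_cast
      ring
    rw [sum_congr rfl e1, sum_comm]
    refine sum_congr rfl fun x _ => ?_
    rw [← sum_filter, mul_sum]
  rw [hsum]
  refine hstep1.trans ?_
  rw [hstep2, mul_assoc]
  refine mul_le_mul_of_nonneg_left ?_ hP
  rw [mul_sum]
  refine sum_le_sum fun x hx => ?_
  -- the tops over x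
  obtain ⟨t0, ht0, hxt0⟩ := mem_biUnion.1 hx
  have hx0 : x / 2 ^ t0.1 = t0.2 := mem_cell.1 hxt0
  have hposx : pos 0 x := by
    apply hposmono 0 t0.1 x (Nat.zero_le _) (htopT t0 ht0).1
    rw [Nat.sub_zero, hx0]
    exact (htopT t0 ht0).2.1
  have hprod : ∀ t : ℕ × ℤ, ∏ j, (2 : ℝ) ^ c t.1 t.2 j = 2 ^ (∑ j, c t.1 t.2 j) := by
    intro t
    exact prod_two_zpow _ _
  calc ∑ t ∈ 𝒯.filter (fun t => x / 2 ^ t.1 = t.2), ∏ j, (2 : ℝ) ^ c t.1 t.2 j
      = ∑ t ∈ 𝒯.filter (fun t => x / 2 ^ t.1 = t.2), (2 : ℝ) ^ (∑ j, c t.1 t.2 j) :=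
        sum_congr rfl fun t _ => hprod t
    _ ≤ 2 * 2 ^ (∑ j, c 0 x j) := by
        apply sum_zpow_le
        · -- strictly monotone in the scale
          have hlt : ∀ t ∈ 𝒯, x / 2 ^ t.1 = t.2 → ∀ t' ∈ 𝒯, x / 2 ^ t'.1 = t'.2 → t.1 < t'.1 →
              ∑ j, c t'.1 t'.2 j < ∑ j, c t.1 t.2 j := by
            intro t ht hxt t' ht' hxt' hlt
            have e : t.2 / 2 ^ (t'.1 - t.1) = t'.2 := by
              rw [← hxt, ← hxt', ← ediv_pow_add]
              congr 2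
              omega
            have hp' := (htopT t' ht').2.1
            have h1 : ∀ j, c t'.1 t'.2 j ≤ c t.1 t.2 j := by
              have := hcmono t.1 t'.1 t.2 hlt.le (htopT t' ht').1 (by rw [e]; exact hp')
              rw [e] at this
              exact this
            have h2 : c t'.1 t'.2 ≠ c t.1 t.2 := by
              intro h3
              apply (htopT t ht).2.2 t'.1 hlt (htopT t' ht').1
              rw [e]
              exact ⟨hp', h3⟩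
            apply lt_of_le_of_ne (sum_le_sum fun j _ => h1 j)
            intro h3
            apply h2
            funext j
            by_contra h4
            have h5 : c t'.1 t'.2 j < c t.1 t.2 j := lt_of_le_of_ne (h1 j) h4
            have := sum_lt_sum (s := univ) (fun j _ => h1 j) ⟨j, mem_univ j, h5⟩
            omega
          intro t ht t' ht' h
          obtain ⟨ht1, ht2⟩ := mem_filter.1 (mem_coe.1 ht)
          obtain ⟨ht1', ht2'⟩ := mem_filter.1 (mem_coe.1 ht')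
          rcases lt_trichotomy t.1 t'.1 with h1 | h1 | h1
          · have := hlt t ht1 ht2 t' ht1' ht2' h1
            simp only at h
            omega
          · apply Prod.ext h1
            rw [← ht2, ← ht2', h1]
          · have := hlt t' ht1' ht2' t ht1 ht2 h1
            simp only at h
            omega
        · intro t ht
          obtain ⟨ht1, ht2⟩ := mem_filter.1 ht
          refine sum_le_sum fun j _ => ?_
          have := hcmono 0 t.1 x (Nat.zero_le _) (htopT t ht1).1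
            (by rw [Nat.sub_zero, ht2]; exact (htopT t ht1).2.1) j
          rwa [Nat.sub_zero, ht2] at this
    _ ≤ 2 * 2 ^ Fintype.card ι * ∏ j, A j 0 x := by
        rw [mul_assoc]
        refine mul_le_mul_of_nonneg_left ?_ (by norm_num)
        have h1 := hprod (0, x)
        simp only at h1
        rw [← h1]
        have h2 : ∏ j, (2 : ℝ) ^ c 0 x j ≤ ∏ j, 2 * A j 0 x :=
          prod_le_prod (fun j _ => by positivity) fun j _ => hc2 0 x hposx j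
        refine h2.trans (le_of_eq ?_)
        rw [prod_mul_distrib, prod_const, card_univ]

/-- Hölder's inequality for finitely many functions on a finite set -/
theorem holder_fin {ι : Type*} [Fintype ι] (X : Finset ℤ) (F : ι → ℤ → ℝ)
    (hF : ∀ j x, 0 ≤ F j x) (d : ι → ℝ) (hd : ∀ j, 0 < d j) (hd1 : ∑ j, d j = 1) :
    ∑ x ∈ X, ∏ j, F j x ≤ ∏ j, (∑ x ∈ X, F j x ^ (1 / d j)) ^ d j := by
  have h := ENNReal.lintegral_prod_norm_pow_le (μ := MeasureTheory.Measure.count.restrict (X : Set ℤ))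
    (univ : Finset ι) (f := fun j x => ENNReal.ofReal (F j x ^ (1 / d j)))
    (fun j _ => measurable_from_top.aemeasurable) (p := d) hd1 (fun j _ => (hd j).le)
  have e1 : ∀ g : ℤ → ℝ, (∀ x, 0 ≤ g x) →
      ∫⁻ x, ENNReal.ofReal (g x) ∂(MeasureTheory.Measure.count.restrict (X : Set ℤ)) =
        ENNReal.ofReal (∑ x ∈ X, g x) := by
    intro g hg
    rw [MeasureTheory.lintegral_finset]
    rw [ENNReal.ofReal_sum_of_nonneg fun x _ => hg x]
    refine sum_congr rfl fun x _ => ?_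
    simp
  have e2 : ∀ x, ∏ j, (ENNReal.ofReal (F j x ^ (1 / d j))) ^ d j =
      ENNReal.ofReal (∏ j, F j x) := by
    intro x
    rw [ENNReal.ofReal_prod_of_nonneg fun j _ => hF j x]
    refine prod_congr rfl fun j _ => ?_
    rw [ENNReal.ofReal_rpow_of_nonneg (Real.rpow_nonneg (hF j x) _) (hd j).le,
      ← Real.rpow_mul (hF j x), one_div_mul_cancel (hd j).ne', Real.rpow_one]
  simp_rw [e2] at h
  rw [e1 _ fun x => prod_nonneg fun j _ => hF j x] at h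
  have e3 : ∏ j, (∫⁻ x, ENNReal.ofReal (F j x ^ (1 / d j))
      ∂(MeasureTheory.Measure.count.restrict (X : Set ℤ))) ^ d j =
      ENNReal.ofReal (∏ j, (∑ x ∈ X, F j x ^ (1 / d j)) ^ d j) := by
    have h0 : ∀ j, 0 ≤ ∑ x ∈ X, F j x ^ (1 / d j) := fun j =>
      sum_nonneg fun x _ => Real.rpow_nonneg (hF j x) _
    rw [ENNReal.ofReal_prod_of_nonneg fun j _ => Real.rpow_nonneg (h0 j) _]
    refine prod_congr rfl fun j _ => ?_
    rw [e1 _ fun x => Real.rpow_nonneg (hF j x) _, ENNReal.ofReal_rpow_of_nonneg (h0 j) (hd j).le]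
  rw [e3] at h
  exact (ENNReal.ofReal_le_ofReal_iff (prod_nonneg fun j _ => Real.rpow_nonneg
    (sum_nonneg fun x _ => Real.rpow_nonneg (hF j x) _) _)).1 h

/-- **Stopping theorem**: root estimates with node averages `≤ a j` imply the global estimate in
all exponents `> q`. -/
theorem tops {ι : Type*} [Fintype ι] {q : ℝ} (hq : 0 < q) (d : ι → ℝ) (hd : ∀ j, 0 < d j)
    (hd1 : ∑ j, d j = 1) (hdq : ∀ j, d j * q < 1) :
    ∃ C : ℝ, 0 < C ∧ ∀ (f : ι → ℤ → ℝ), (∀ j, (f j).support.Finite) → ∀ (n : ℕ) (w : ℕ → ℤ → ℝ)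
      (P : ℝ), 0 ≤ P →
      (∀ k v, k ≤ n → (∃ j, RM q (f j) n k v ≤ 0) → w k v = 0) →
      (∀ K ≤ n, ∀ V : ℤ, ∀ a : ι → ℝ, (∀ j, 0 < a j) → ∀ 𝒩 : Finset (ℕ × ℤ),
        (∀ N ∈ 𝒩, N.1 ≤ K ∧ N.2 / 2 ^ (K - N.1) = V ∧ ∀ j, RM q (f j) n N.1 N.2 ≤ a j) →
        ∑ N ∈ 𝒩, w N.1 N.2 ≤ P * 2 ^ K * ∏ j, a j) →
      ∀ 𝒮 : Finset (ℕ × ℤ), (∀ N ∈ 𝒮, N.1 ≤ n) →
        ∑ N ∈ 𝒮, w N.1 N.2 ≤ C * P * ∏ j, (∑' x, |f j x| ^ (1 / d j)) ^ d j := by
  have hp : ∀ j, q < 1 / d j := fun j => by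
    rw [lt_div_iff₀ (hd j)]
    linarith [hdq j]
  choose C hC0 hC using fun j => hardy_littlewood hq (hp j)
  refine ⟨2 * 2 ^ Fintype.card ι * ∏ j, C j ^ d j,
    mul_pos (by positivity) (prod_pos fun j _ => Real.rpow_pos_of_pos (hC0 j) _), ?_⟩
  intro f hf n w P hP hw0 hroot 𝒮 h𝒮
  obtain ⟨X, hX⟩ := stop_abs n (fun j k v => RM q (f j) n k v)
    (fun j k k' v h1 _ => RM_mono hq (f j) h1 v) w P hP hw0 hroot 𝒮 h𝒮
  refine hX.trans ?_
  have h1 := holder_fin X (fun j x => RM q (f j) n 0 x) (fun j x => RM_nonneg _ _ _ _ _) d hd hd1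
  have h2 : ∏ j, (∑ x ∈ X, RM q (f j) n 0 x ^ (1 / d j)) ^ d j ≤
      ∏ j, (C j ^ d j * (∑' x, |f j x| ^ (1 / d j)) ^ d j) := by
    refine prod_le_prod (fun j _ => Real.rpow_nonneg
      (sum_nonneg fun x _ => Real.rpow_nonneg (RM_nonneg _ _ _ _ _) _) _) fun j _ => ?_
    rw [← Real.mul_rpow (hC0 j).le (tsum_nonneg fun x => Real.rpow_nonneg (abs_nonneg _) _)]
    exact Real.rpow_le_rpow (sum_nonneg fun x _ => Real.rpow_nonneg (RM_nonneg _ _ _ _ _) _)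
      (hC j (f j) (hf j) n X) (hd j).le
  rw [prod_mul_distrib] at h2
  calc P * (2 * 2 ^ Fintype.card ι) * ∑ x ∈ X, ∏ j, RM q (f j) n 0 x
      ≤ P * (2 * 2 ^ Fintype.card ι) * ((∏ j, C j ^ d j) *
        ∏ j, (∑' x, |f j x| ^ (1 / d j)) ^ d j) :=
        mul_le_mul_of_nonneg_left (h1.trans h2) (by positivity)
    _ = (2 * 2 ^ Fintype.card ι * ∏ j, C j ^ d j) * P *
        ∏ j, (∑' x, |f j x| ^ (1 / d j)) ^ d j := by
        ring

end Vale.Agent.P141.PL.H571
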