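import Vale.Agent.P141.PL.H571.Defs
import Vale.Agent.P141.PL.H571.Single
import Vale.Agent.P141.PL.H571.Tops

/-!
# P141, density step: the root estimate implies the estimate on all nodes
-/

namespace Vale.Agent.P141.PL.H571

open Finset Vale.Agent.P141.PL.H620

/-- homogeneity -/
theorem loc1_smul (k : ℕ) (m : Fin 4 → ℤ) (a : Fin 4 → ℝ) (f : Fin 4 → ℤ → ℝ) :
    loc1 k m (fun j x => a j * f j x) = (∏ j, a j) * loc1 k m f := by
  unfold loc1
  rw [mul_left_comm, mul_sum (s := pts k) (a := ∏ j, a j)]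
  congr 1
  refine sum_congr rfl fun x _ => ?_
  rw [prod_mul_distrib]
  ring

/-- telescoping -/
theorem loc1_tele (k : ℕ) (m : Fin 4 → ℤ) (g s b : Fin 4 → ℤ → ℝ)
    (h : ∀ j x, g j x = s j x + b j x) :
    loc1 k m g = loc1 k m s + (loc1 k m ![b 0, g 1, g 2, g 3] + loc1 k m ![s 0, b 1, g 2, g 3]
      + loc1 k m ![s 0, s 1, b 2, g 3] + loc1 k m ![s 0, s 1, s 2, b 3]) := by
  unfold loc1
  rw [← mul_add, ← mul_add, ← mul_add, ← mul_add, ← sum_add_distrib, ← sum_add_distrib,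
    ← sum_add_distrib, ← sum_add_distrib]
  congr 1
  refine sum_congr rfl fun x _ => ?_
  simp only [Fin.prod_univ_four, Matrix.cons_val_zero, Matrix.cons_val_one, Matrix.cons_val, h]
  ring

theorem sq_le_young {q : ℝ} (hq : 2 < q) {t : ℝ} (ht : 0 ≤ t) :
    t ^ 2 ≤ (1 - 2 / q) + 2 / q * t ^ q := by
  have hq0 : 0 < q := by linarith
  have h1 : 0 ≤ 1 - 2 / q := by
    rw [sub_nonneg, div_le_one hq0]; exact hq.le
  have h := Real.geom_mean_le_arith_mean2_weighted h1 (by positivity : 0 ≤ 2 / q) zero_le_one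
    (Real.rpow_nonneg ht q) (by ring)
  rw [Real.one_rpow, one_mul, ← Real.rpow_mul ht, mul_div_cancel₀ _ hq0.ne', mul_one] at h
  rwa [← Real.rpow_natCast]

theorem trunc_sq {q : ℝ} (hq : 2 < q) {H : ℝ} (hH : 0 < H) {t : ℝ} (ht : H < t) :
    t ^ 2 ≤ H ^ (2 - q) * t ^ q := by
  have ht0 : 0 < t := hH.trans ht
  have h1 : t ^ 2 = t ^ (2 - q) * t ^ q := by
    rw [← Real.rpow_add ht0, ← Real.rpow_natCast]
    congr 1
    push_cast
    ring
  rw [h1]
  refine mul_le_mul_of_nonneg_right ?_ (Real.rpow_nonneg ht0.le _)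
  exact Real.rpow_le_rpow_of_nonpos hH ht.le (by linarith)

/-- **the density step**: the root estimate implies the estimate on all nodes, with the loss of a
constant and of the truncation error -/
theorem node_of_root {q : ℝ} (hq : 2 < q) (d : Fin 4 → ℝ) (hd : ∀ j, 0 < d j)
    (hd1 : ∑ j, d j = 1) (hdq : ∀ j, d j * q < 1) :
    ∃ C : ℝ, 0 < C ∧ ∀ (n : ℕ) (H P : ℝ), 0 < H → 0 ≤ P → RootTh n H P →
      Node n (C * (P + n * H ^ (-(q - 2) / 2))) d := by
  classical
  have hq0 : 0 < q := by linarith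
  obtain ⟨C, hC, htops⟩ := tops hq0 d hd hd1 hdq
  refine ⟨C * 2 ^ 12, by positivity, ?_⟩
  intro n H P hH hP hroot f hf o ho V
  set w : ℕ → ℤ → ℝ := fun k v =>
    if 1 ≤ k then ((4 : ℝ) ^ k)⁻¹ * |loc1 k (nn o v 0 0) f| else 0 with hw
  set P' : ℝ := P + 2 ^ 12 * n * H ^ (-(q - 2) / 2) with hP'
  have hHp : 0 ≤ H ^ (-(q - 2) / 2) := Real.rpow_nonneg hH.le _
  have hP'0 : 0 ≤ P' := by positivity
  -- vanishing
  have hw0 : ∀ k v, k ≤ n → (∃ j, RM q (f j) n k v ≤ 0) → w k v = 0 := by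
    rintro k v hk ⟨j, hj⟩
    have h1 := av_le_RM hq0 (f j) (le_refl k) hk v
    rw [Nat.sub_self, pow_zero, Int.ediv_one, le_antisymm hj (RM_nonneg _ _ _ _ _),
      Real.zero_rpow hq0.ne'] at h1
    have h2 : ∑ y ∈ W k v, |f j y| ^ q ≤ 0 := by
      rw [av, div_le_iff₀ (by positivity), zero_mul] at h1
      exact h1
    have h3 : ∀ y ∈ W k v, |f j y| = 0 := by
      intro y hy
      have h4 := (sum_eq_zero_iff_of_nonneg fun z _ => Real.rpow_nonneg (abs_nonneg (f j z)) q).1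
        (le_antisymm h2 (sum_nonneg fun z _ => Real.rpow_nonneg (abs_nonneg _) _)) y hy
      exact (Real.rpow_eq_zero (abs_nonneg _) hq0.ne').1 h4
    have h5 : ∑ y ∈ W k v, |f j y| ^ 2 = 0 :=
      sum_eq_zero fun y hy => by rw [h3 y hy]; norm_num
    have h6 := abs_loc1_le (k := k) (v := v) ho f
    rw [prod_eq_zero (mem_univ j) (by rw [h5, Real.sqrt_zero]), mul_zero] at h6
    simp only [hw]
    split_ifs
    · rw [le_antisymm h6 (abs_nonneg _), mul_zero]
    · rfl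
  -- the root estimate
  have hR : ∀ K ≤ n, ∀ V : ℤ, ∀ a : Fin 4 → ℝ, (∀ j, 0 < a j) → ∀ 𝒩 : Finset (ℕ × ℤ),
      (∀ N ∈ 𝒩, N.1 ≤ K ∧ N.2 / 2 ^ (K - N.1) = V ∧ ∀ j, RM q (f j) n N.1 N.2 ≤ a j) →
      ∑ N ∈ 𝒩, w N.1 N.2 ≤ P' * 2 ^ K * ∏ j, a j := by
    intro K hK V a ha 𝒩 h𝒩
    set g : Fin 4 → ℤ → ℝ := fun j x => (a j)⁻¹ * f j x with hg
    set s : Fin 4 → ℤ → ℝ := fun j x => if |g j x| ≤ H then g j x else 0 with hs
    set b : Fin 4 → ℤ → ℝ := fun j x => if |g j x| ≤ H then 0 else g j x with hb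
    have hgsb : ∀ j x, g j x = s j x + b j x := by
      intro j x
      simp only [hs, hb]
      split_ifs <;> simp
    -- the closure
    set 𝒩' : Finset (ℕ × ℤ) := ((Icc 1 K).biUnion fun k =>
      (Ico (2 ^ (K - k) * V) (2 ^ (K - k) * (V + 1))).image fun v => (k, v)).filter
        fun N => ∀ j, RM q (f j) n N.1 N.2 ≤ a j with h𝒩'
    have hmem : ∀ N : ℕ × ℤ, N ∈ 𝒩' ↔ (1 ≤ N.1 ∧ N.1 ≤ K ∧ N.2 / 2 ^ (K - N.1) = V) ∧
        ∀ j, RM q (f j) n N.1 N.2 ≤ a j := by
      rintro ⟨k, v⟩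
      rw [h𝒩', mem_filter, mem_biUnion]
      constructor
      · rintro ⟨⟨k', hk', hv'⟩, h2⟩
        obtain ⟨v', hv'', hkv⟩ := mem_image.1 hv'
        rw [Prod.mk.injEq] at hkv
        obtain ⟨rfl, rfl⟩ := hkv
        rw [mem_cell] at hv''
        rw [mem_Icc] at hk'
        exact ⟨⟨hk'.1, hk'.2, hv''⟩, h2⟩
      · rintro ⟨⟨h1, h2, h3⟩, h4⟩
        exact ⟨⟨k, mem_Icc.2 ⟨h1, h2⟩, mem_image.2 ⟨v, mem_cell.2 h3, rfl⟩⟩, h4⟩
    -- averages of g
    have hgq : ∀ N ∈ 𝒩', ∀ j, ∑ y ∈ W N.1 N.2, |g j y| ^ q ≤ 2 ^ (N.1 + 5) := by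
      intro N hN j
      obtain ⟨⟨_, hNK, _⟩, hN2⟩ := (hmem N).1 hN
      have h1 := av_le_RM hq0 (f j) (le_refl N.1) (hNK.trans hK) N.2
      rw [Nat.sub_self, pow_zero, Int.ediv_one] at h1
      have h2 : RM q (f j) n N.1 N.2 ^ q ≤ a j ^ q :=
        Real.rpow_le_rpow (RM_nonneg _ _ _ _ _) (hN2 j) hq0.le
      have h3 := h1.trans h2
      rw [av, div_le_iff₀ (by positivity)] at h3
      have h4 : ∑ y ∈ W N.1 N.2, |g j y| ^ q = ((a j)⁻¹) ^ q * ∑ y ∈ W N.1 N.2, |f j y| ^ q := by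
        rw [mul_sum]
        refine sum_congr rfl fun y _ => ?_
        simp only [hg]
        rw [abs_mul, abs_of_pos (inv_pos.2 (ha j)),
          Real.mul_rpow (inv_pos.2 (ha j)).le (abs_nonneg _)]
      rw [h4]
      refine (mul_le_mul_of_nonneg_left h3 (Real.rpow_nonneg (inv_pos.2 (ha j)).le _)).trans
        (le_of_eq ?_)
      rw [← mul_assoc, ← Real.mul_rpow (inv_pos.2 (ha j)).le (ha j).le,
        inv_mul_cancel₀ (ha j).ne', Real.one_rpow, one_mul]
    have hg2 : ∀ N ∈ 𝒩', ∀ j, ∑ y ∈ W N.1 N.2, |g j y| ^ 2 ≤ 2 ^ (N.1 + 5) := by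
      intro N hN j
      have h1 : ∑ y ∈ W N.1 N.2, |g j y| ^ 2 ≤
          ∑ y ∈ W N.1 N.2, ((1 - 2 / q) + 2 / q * |g j y| ^ q) :=
        sum_le_sum fun y _ => sq_le_young hq (abs_nonneg _)
      refine h1.trans ?_
      rw [sum_add_distrib, sum_const, card_W, ← mul_sum, nsmul_eq_mul]
      have h2 := mul_le_mul_of_nonneg_left (hgq N hN j) (by positivity : 0 ≤ 2 / q)
      push_cast
      nlinarith
    have hs2 : ∀ N ∈ 𝒩', ∀ j, ∑ y ∈ W N.1 N.2, |s j y| ^ 2 ≤ 2 ^ (N.1 + 5) := by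
      intro N hN j
      refine (sum_le_sum fun y _ => ?_).trans (hg2 N hN j)
      simp only [hs]
      split_ifs
      · exact le_refl _
      · rw [abs_zero, zero_pow two_ne_zero]; exact sq_nonneg _
    have hb2 : ∀ N ∈ 𝒩', ∀ j, ∑ y ∈ W N.1 N.2, |b j y| ^ 2 ≤ 2 ^ (N.1 + 5) * H ^ (2 - q) := by
      intro N hN j
      have h1 : ∑ y ∈ W N.1 N.2, |b j y| ^ 2 ≤ ∑ y ∈ W N.1 N.2, H ^ (2 - q) * |g j y| ^ q := by
        refine sum_le_sum fun y _ => ?_
        simp only [hb]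
        split_ifs with h
        · rw [abs_zero, zero_pow two_ne_zero]
          exact mul_nonneg (Real.rpow_nonneg hH.le (2 - q)) (Real.rpow_nonneg (abs_nonneg _) q)
        · exact trunc_sq hq hH (lt_of_not_ge h)
      refine h1.trans ?_
      rw [← mul_sum, mul_comm]
      exact mul_le_mul_of_nonneg_right (hgq N hN j) (Real.rpow_nonneg hH.le _)
    -- the error
    have hsq : √(H ^ (2 - q)) = H ^ (-(q - 2) / 2) := by
      rw [Real.sqrt_eq_rpow, ← Real.rpow_mul hH.le]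
      congr 1
      ring
    have herr : ∀ N ∈ 𝒩', ((4 : ℝ) ^ N.1)⁻¹ * |loc1 N.1 (nn o N.2 0 0) g| ≤
        ((4 : ℝ) ^ N.1)⁻¹ * |loc1 N.1 (nn o N.2 0 0) s| +
          2 ^ 12 * H ^ (-(q - 2) / 2) * 2 ^ N.1 := by
      intro N hN
      have hG := hg2 N hN
      have hS := hs2 N hN
      have hB := hb2 N hN
      have e0 := single_scale (k := N.1) (v := N.2) ho ![b 0, g 1, g 2, g 3]
        ![H ^ (2 - q), 1, 1, 1] (by
          intro j; fin_cases j
          · simpa using hB 0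
          · simpa using hG 1
          · simpa using hG 2
          · simpa using hG 3)
      have e1 := single_scale (k := N.1) (v := N.2) ho ![s 0, b 1, g 2, g 3]
        ![1, H ^ (2 - q), 1, 1] (by
          intro j; fin_cases j
          · simpa using hS 0
          · simpa using hB 1
          · simpa using hG 2
          · simpa using hG 3)
      have e2 := single_scale (k := N.1) (v := N.2) ho ![s 0, s 1, b 2, g 3]
        ![1, 1, H ^ (2 - q), 1] (by
          intro j; fin_cases j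
          · simpa using hS 0
          · simpa using hS 1
          · simpa using hB 2
          · simpa using hG 3)
      have e3 := single_scale (k := N.1) (v := N.2) ho ![s 0, s 1, s 2, b 3]
        ![1, 1, 1, H ^ (2 - q)] (by
          intro j; fin_cases j
          · simpa using hS 0
          · simpa using hS 1
          · simpa using hS 2
          · simpa using hB 3)
      simp only [Fin.prod_univ_four, Matrix.cons_val_zero, Matrix.cons_val_one, Matrix.cons_val,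
        Real.sqrt_one, mul_one, one_mul, hsq] at e0 e1 e2 e3
      rw [loc1_tele N.1 (nn o N.2 0 0) g s b hgsb]
      set t0 := loc1 N.1 (nn o N.2 0 0) ![b 0, g 1, g 2, g 3]
      set t1 := loc1 N.1 (nn o N.2 0 0) ![s 0, b 1, g 2, g 3]
      set t2 := loc1 N.1 (nn o N.2 0 0) ![s 0, s 1, b 2, g 3]
      set t3 := loc1 N.1 (nn o N.2 0 0) ![s 0, s 1, s 2, b 3]
      have habs : |loc1 N.1 (nn o N.2 0 0) s + (t0 + t1 + t2 + t3)| ≤
          |loc1 N.1 (nn o N.2 0 0) s| + (|t0| + |t1| + |t2| + |t3|) := by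
        refine (abs_add_le _ _).trans (add_le_add le_rfl ?_)
        refine (abs_add_le _ _).trans (add_le_add ?_ le_rfl)
        refine (abs_add_le _ _).trans (add_le_add ?_ le_rfl)
        exact abs_add_le _ _
      refine (mul_le_mul_of_nonneg_left habs (by positivity)).trans ?_
      rw [mul_add, mul_add, mul_add, mul_add]
      nlinarith
    -- sum of the errors
    have hcount : ∑ N ∈ 𝒩', (2 : ℝ) ^ N.1 ≤ n * 2 ^ K := by
      have h1 : ∑ N ∈ 𝒩', (2 : ℝ) ^ N.1 ≤ ∑ N ∈ ((Icc 1 K).biUnion fun k =>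
          (Ico (2 ^ (K - k) * V) (2 ^ (K - k) * (V + 1))).image fun v => (k, v)), (2 : ℝ) ^ N.1 :=
        sum_le_sum_of_subset_of_nonneg (filter_subset _ _) fun _ _ _ => by positivity
      refine h1.trans ?_
      rw [sum_biUnion]
      · have h2 : ∀ k ∈ Icc 1 K, ∑ N ∈ (Ico (2 ^ (K - k) * V) (2 ^ (K - k) * (V + 1))).image
            (fun v => ((k, v) : ℕ × ℤ)), (2 : ℝ) ^ N.1 = 2 ^ K := by
          intro k hk
          rw [mem_Icc] at hk
          rw [sum_image (fun x _ y _ hxy => (Prod.mk.inj hxy).2)]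
          simp only
          rw [sum_const, card_cell, nsmul_eq_mul]
          push_cast
          rw [← pow_add]
          congr 1
          omega
        rw [sum_congr rfl h2, sum_const, Nat.card_Icc, nsmul_eq_mul, Nat.add_sub_cancel]
        have : (K : ℝ) ≤ n := by exact_mod_cast hK
        exact mul_le_mul_of_nonneg_right this (by positivity)
      · intro k _ k' _ hkk'
        refine disjoint_left.2 fun N hN hN' => hkk' ?_
        obtain ⟨_, _, rfl⟩ := mem_image.1 hN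
        obtain ⟨_, _, h⟩ := mem_image.1 hN'
        exact (Prod.mk.inj h).1.symm
    -- the main term
    have hmain : ∑ N ∈ 𝒩', ((4 : ℝ) ^ N.1)⁻¹ * |loc1 N.1 (nn o N.2 0 0) s| ≤ P * 2 ^ K := by
      refine hroot s ?_ o ho K hK V 𝒩' ?_ ?_ ?_ hs2
      · intro j
        refine (hf j).subset fun x hx => ?_
        simp only [Function.mem_support] at hx ⊢
        intro h0
        apply hx
        simp only [hs, hg, h0, mul_zero, ite_self]
      · intro N hN
        exact ((hmem N).1 hN).1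
      · intro N hN k' h1 h2
        obtain ⟨⟨h3, h4, h5⟩, h6⟩ := (hmem N).1 hN
        rw [hmem]
        refine ⟨⟨h3.trans h1, h2, ?_⟩, fun j => (RM_mono hq0 (f j) h1 N.2).trans (h6 j)⟩
        simp only
        rw [← ediv_pow_add, ← h5]
        congr 2
        omega
      · intro j x
        simp only [hs]
        split_ifs with h
        · exact h
        · rw [abs_zero]; exact hH.le
    have htot : ∑ N ∈ 𝒩', ((4 : ℝ) ^ N.1)⁻¹ * |loc1 N.1 (nn o N.2 0 0) g| ≤ P' * 2 ^ K := by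
      refine (sum_le_sum herr).trans ?_
      rw [sum_add_distrib, ← mul_sum]
      have := mul_le_mul_of_nonneg_left hcount
        (by positivity : 0 ≤ 2 ^ 12 * H ^ (-(q - 2) / 2))
      rw [hP']
      nlinarith
    -- back to f
    have hfg : ∀ k v, |loc1 k (nn o v 0 0) f| = (∏ j, a j) * |loc1 k (nn o v 0 0) g| := by
      intro k v
      have h1 : loc1 k (nn o v 0 0) f = loc1 k (nn o v 0 0) (fun j x => a j * g j x) := by
        congr 1
        funext j x
        simp only [hg]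
        rw [mul_inv_cancel_left₀ (ha j).ne']
      rw [h1, loc1_smul, abs_mul, abs_of_pos (prod_pos fun j _ => ha j)]
    have hlast : ∑ N ∈ 𝒩, w N.1 N.2 ≤ ∑ N ∈ 𝒩', w N.1 N.2 := by
      have h1 : ∑ N ∈ 𝒩, w N.1 N.2 = ∑ N ∈ 𝒩.filter (fun N => 1 ≤ N.1), w N.1 N.2 := by
        rw [sum_filter]
        refine sum_congr rfl fun N _ => ?_
        simp only [hw]
        split_ifs <;> rfl
      rw [h1]
      refine sum_le_sum_of_subset_of_nonneg ?_ fun N _ _ => ?_
      · intro N hN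
        rw [mem_filter] at hN
        obtain ⟨h2, h3, h4⟩ := h𝒩 N hN.1
        exact (hmem N).2 ⟨⟨hN.2, h2, h3⟩, h4⟩
      · simp only [hw]
        split_ifs
        · positivity
        · exact le_rfl
    refine hlast.trans ?_
    have h2 : ∑ N ∈ 𝒩', w N.1 N.2 =
        (∏ j, a j) * ∑ N ∈ 𝒩', ((4 : ℝ) ^ N.1)⁻¹ * |loc1 N.1 (nn o N.2 0 0) g| := by
      rw [mul_sum]
      refine sum_congr rfl fun N hN => ?_
      simp only [hw]
      rw [if_pos ((hmem N).1 hN).1.1, hfg]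
      ring
    rw [h2, mul_comm]
    exact mul_le_mul_of_nonneg_right htot (prod_nonneg fun j _ => (ha j).le)
  -- conclusion
  have h := htops f hf n w P' hP'0 hw0 hR (Icc 1 n ×ˢ Icc (-(V : ℤ)) V) (by
    intro N hN
    exact (mem_Icc.1 (mem_product.1 hN).1).2)
  rw [sum_product] at h
  have h1 : ∑ k ∈ Icc 1 n, ((4 : ℝ) ^ k)⁻¹ * ∑ v ∈ Icc (-(V : ℤ)) V, |loc1 k (nn o v 0 0) f| =
      ∑ k ∈ Icc 1 n, ∑ v ∈ Icc (-(V : ℤ)) V, w k v := by
    refine sum_congr rfl fun k hk => ?_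
    rw [mul_sum]
    refine sum_congr rfl fun v _ => ?_
    simp only [hw]
    rw [if_pos (mem_Icc.1 hk).1]
  rw [h1]
  refine h.trans ?_
  refine mul_le_mul_of_nonneg_right ?_ (prod_nonneg fun j _ => Real.rpow_nonneg
    (tsum_nonneg fun x => Real.rpow_nonneg (abs_nonneg _) _) _)
  rw [hP']
  have : (0 : ℝ) ≤ n := Nat.cast_nonneg n
  nlinarith [mul_nonneg hC.le hP, mul_nonneg (mul_nonneg hC.le this) hHp]

end Vale.Agent.P141.PL.H571
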